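import Crest.Agent.R241.Slice.Co

/-!
# Block S, part 6: the boundary of `c ⌞ {u ≤ t}` on a fixed test pair.
-/

open MeasureTheory Set Filter Topology
open Crest.GeometryTopology.MetricCurrent
open Crest.GeometryTopology.Submanifold (Euc unitBallVol unitSphereArea)
open scoped ENNReal NNReal InnerProductSpace

noncomputable section

namespace Crest.Agent.R241

universe u

theorem sl_fub₀ {Ω : Type*} [MeasurableSpace Ω] (μ : Measure Ω) [IsFiniteMeasure μ] {U H : Ω → ℝ}
    (hU : Measurable U) (hH : Integrable H μ) :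
    LocallyIntegrable (fun t : ℝ => ∫ w in {w | U w ≤ t}, H w ∂μ) ∧
      ∀ g : ℝ → ℝ, Continuous g → HasCompactSupport g →
        ∫ t, g t * ∫ w in {w | U w ≤ t}, H w ∂μ = ∫ w, (∫ t in Ici (U w), g t) * H w ∂μ := by
  have hS : MeasurableSet {p : ℝ × Ω | U p.2 ≤ p.1} :=
    measurableSet_le (hU.comp measurable_snd) measurable_fst
  have hSt : ∀ t : ℝ, MeasurableSet {w | U w ≤ t} := fun t => measurableSet_le hU measurable_const
  constructor
  · have h1 : AEStronglyMeasurable ({p : ℝ × Ω | U p.2 ≤ p.1}.indicator fun p => H p.2)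
        (volume.prod μ) := hH.1.comp_snd.indicator hS
    have h2 := h1.integral_prod_right'
    refine (locallyIntegrable_const (∫ w, ‖H w‖ ∂μ)).mono (h2.congr (Eventually.of_forall fun t => ?_))
      (Eventually.of_forall fun t => ?_)
    · simp only
      rw [← integral_indicator (hSt t)]
      rfl
    · exact ((norm_integral_le_integral_norm _).trans
        (setIntegral_le_integral hH.norm (Eventually.of_forall fun _ => norm_nonneg _))).trans
        (le_abs_self _)
  · intro g hg hgc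
    have h1 := ((hg.integrable_of_hasCompactSupport (μ := volume) hgc).mul_prod hH).indicator hS
    have h2 := integral_integral_swap (μ := volume) (ν := μ) (f := fun t w =>
      {p : ℝ × Ω | U p.2 ≤ p.1}.indicator (fun p => g p.1 * H p.2) (t, w)) h1
    convert h2 using 2
    · funext t
      rw [← integral_const_mul, ← integral_indicator (hSt t)]
      rfl
    · funext w
      rw [← integral_mul_const, ← integral_indicator measurableSet_Ici]
      rfl

theorem sl_fub {Ω : Type*} [MeasurableSpace Ω] (μ : Measure Ω) [IsFiniteMeasure μ] {U H : Ω → ℝ}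
    (hU : AEMeasurable U μ) (hH : Integrable H μ) :
    LocallyIntegrable (fun t : ℝ => ∫ w in {w | U w ≤ t}, H w ∂μ) ∧
      ∀ g : ℝ → ℝ, Continuous g → HasCompactSupport g →
        ∫ t, g t * ∫ w in {w | U w ≤ t}, H w ∂μ = ∫ w, (∫ t in Ici (U w), g t) * H w ∂μ := by
  have h1 : ∀ t : ℝ, ∫ w in {w | U w ≤ t}, H w ∂μ = ∫ w in {w | hU.mk U w ≤ t}, H w ∂μ := fun t =>
    setIntegral_congr_set <| by
      filter_upwards [hU.ae_eq_mk] with w hw
      show (U w ≤ t) = (hU.mk U w ≤ t)
      rw [hw]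
  obtain ⟨h2, h3⟩ := sl_fub₀ μ hU.measurable_mk hH
  simp only [h1]
  refine ⟨h2, fun g hg hgc => (h3 g hg hgc).trans (integral_congr_ae ?_)⟩
  filter_upwards [hU.ae_eq_mk] with w hw
  rw [hw]

/-- the primitive vanishing at `+∞` -/
theorem sl_prim {g : ℝ → ℝ} (hg : Continuous g) (hc : HasCompactSupport g) :
    ContDiff ℝ 1 (fun s => ∫ t in Ici s, g t) ∧ ∀ s, HasDerivAt (fun s => ∫ t in Ici s, g t) (-g s) s := by
  have hi : Integrable g := hg.integrable_of_hasCompactSupport hc
  have h1 : (fun s => ∫ t in Ici s, g t)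
      = fun s => (∫ t, g t) - (∫ t in Iic 0, g t) - ∫ t in (0 : ℝ)..s, g t := by
    funext s
    rw [← intervalIntegral.integral_Iic_sub_Iic hi.integrableOn hi.integrableOn,
      ← intervalIntegral.integral_Iic_add_Ioi (b := s) hi.integrableOn hi.integrableOn,
      integral_Ici_eq_integral_Ioi]
    ring
  have h2 : ∀ s, HasDerivAt (fun s => ∫ t in Ici s, g t) (-g s) s := fun s => by
    rw [h1]
    exact (hg.integral_hasStrictDerivAt 0 s).hasDerivAt.const_sub _
  refine ⟨contDiff_one_iff_deriv.2 ⟨fun s => (h2 s).differentiableAt, ?_⟩, h2⟩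
  rw [funext fun s => (h2 s).deriv]
  exact hg.neg

variable {X : Type u} [MetricSpace X] [CompactSpace X] [MeasurableSpace X] [BorelSpace X] {k : ℕ}

omit [MeasurableSpace X] [BorelSpace X] in
/-- Leibniz and chain rule in the first slot -/
theorem sl_act_mul (c : Ch X (k + 1)) {u f : X → ℝ} (hu : Lip u) {π : Fin k → X → ℝ}
    (hf : IsTestPair f π) {γ γ' : ℝ → ℝ} (hγ : ∀ s, HasDerivAt γ (γ' s) s) (hγ' : Continuous γ') :
    c.act (fun _ => 1) (Fin.cons (fun y => γ (u y) * f y) π)
      = c.act (fun y => γ (u y)) (Fin.cons f π)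
        + c.act (fun y => γ' (u y) * f y) (Fin.cons u π) := by
  have hγ1 : ContDiff ℝ 1 γ := contDiff_one_iff_deriv.2
    ⟨fun s => (hγ s).differentiableAt, by rwa [funext fun s => (hγ s).deriv]⟩
  have h1 := c.act_update_mul (isTestPair_cons hf) 0 (hu.contDiff_comp₁ hγ1) hf.1
  simp only [Fin.update_cons_zero, one_mul] at h1
  rw [h1]
  congr 1
  refine integral_congr_ae ?_
  filter_upwards [c.grad_comp₁ hu fun y => (hγ (u y)).differentiableAt] with w hw
  rw [c.jac_eq, c.jac_eq]
  set M : Matrix (Fin (k + 1)) (Fin (k + 1)) ℝ :=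
    Matrix.of fun a j => c.grad ((Fin.cons u π : Fin (k + 1) → X → ℝ) a) w j with hM
  have h2 : (Matrix.of fun a j =>
      c.grad ((Fin.cons (fun y => γ (u y)) π : Fin (k + 1) → X → ℝ) a) w j)
      = M.updateRow 0 (γ' (u (c.pt w)) • M 0) := by
    ext a j
    refine Fin.cases ?_ (fun a => ?_) a
    · simp [hM, hw, (hγ _).deriv]
    · simp [hM]
  rw [h2, Matrix.det_updateRow_smul, Matrix.updateRow_eq_self]
  ring

theorem SlFam.bd {c : Ch X (k + 1)} {u : X → ℝ} {ε : ℝ}
    {Q : ℕ × ℕ → Set (Euc (k + 1))} {ψ : ℕ × ℕ → Euc (k + 1) → X} {s : ℕ × ℕ → ℝ}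
    (h : SlFam c u ε Q ψ s) (hu : Lip u) (hm : ∀ t, MeasurableSet {y | u y ≤ t}) (t₀ : ℝ)
    (hc : ∀ π : Fin (k + 1) → X → ℝ, (∀ a, Lip (π a)) → (∀ y, t₀ ≤ u y → π 0 y = 0) →
      c.act (fun _ => 1) π = 0) {f : X → ℝ} {π : Fin k → X → ℝ} (hf : IsTestPair f π) :
    ∀ᵐ t : ℝ, t < t₀ → (c.restr {y | u y ≤ t} (hm t)).act (fun _ => 1) (Fin.cons f π)
      = slAct Q ψ s f π t := by
  have hf' := isTestPair_cons hf
  obtain ⟨h1, h2⟩ := sl_fub c.par (U := fun w => u (c.pt w))
    (c.aesm_comp_pt hu.continuous).aemeasurable (c.integrable_act hf')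
  have h3 := (h.coarea hu hf).1
  have h4 := isOpen_Iio.ae_eq_zero_of_integral_contDiff_smul_eq_zero (U := Iio t₀)
    ((h1.sub h3.locallyIntegrable).locallyIntegrableOn _) fun g hg hgc hgs => ?_
  · filter_upwards [h4] with t ht htt
    rw [c.act_restr (hm t) _ hf'.2.2]
    exact sub_eq_zero.1 (ht htt)
  obtain ⟨h5, h6⟩ := sl_prim hg.continuous hgc
  have hfl : Lip f := hf.1
  have hgu : Lip fun y => g (u y) := hu.contDiff_comp₁ (hg.of_le (by exact_mod_cast le_top))
  have h7 := hc (Fin.cons (fun y => (∫ t in Ici (u y), g t) * f y) π)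
    (fun a => Fin.cases ((hu.contDiff_comp₁ h5).mul hfl) hf.2.2 a) fun y hy => by
      simp only [Fin.cons_zero]
      rw [setIntegral_eq_zero_of_forall_eq_zero, zero_mul]
      exact fun t ht => image_eq_zero_of_notMem_tsupport fun h' =>
        (hy.trans ht).not_gt (hgs h')
  rw [sl_act_mul c hu hf h6 hg.continuous.neg] at h7
  have h8 := (h.coarea hu (isTestPair_iff.2 ⟨hgu.mul hfl, hf.2.2⟩)).2
  have h9 := c.act_const_mul_left (-1) (fun y => g (u y) * f y) (Fin.cons u π)
  simp only [neg_mul, one_mul] at h7 h9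
  have h10 := integral_sub (h1.integrable_smul_left_of_hasCompactSupport hg.continuous hgc)
    (h3.locallyIntegrable.integrable_smul_left_of_hasCompactSupport hg.continuous hgc)
  simp only [smul_eq_mul] at h10
  simp only [Pi.sub_apply, smul_eq_mul, mul_sub]
  rw [h10, h2 g hg.continuous hgc]
  simp only [h.slAct_mul] at h8
  rw [h8, sub_eq_add_neg, ← h9, ← h7]
  congr 1
  exact integral_congr_ae (Eventually.of_forall fun w => by simp only; ring)

omit [MeasurableSpace X] [BorelSpace X] in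
/-- it is enough to test `IsBd` on a countable dense family -/
theorem sl_isBd_of_dense {D : Set (X → ℝ)} (hD : ∀ f : X → ℝ, Lip f → ∃ (L : ℝ≥0) (g : ℕ → X → ℝ),
      (∀ j, g j ∈ D) ∧ (∀ j, LipschitzWith L (g j)) ∧ TendstoUniformly g f atTop)
    {S : Ch X (k + 1)} {c : Ch X k} (h : ∀ f ∈ D, ∀ π : Fin k → X → ℝ, (∀ a, π a ∈ D) →
      S.act (fun _ => 1) (Fin.cons f π) = c.act f π) : IsBd S c := by
  intro f π hf
  obtain ⟨Lf, g, hgD, hgL, hg⟩ := hD f hf.1
  choose L p hpD hpL hp using fun a => hD (π a) (hf.2.2 a)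
  let L' : ℝ≥0 := max Lf (Finset.univ.sup L)
  have hpL' : ∀ j a, LipschitzWith L' (p a j) := fun j a =>
    (hpL a j).weaken ((Finset.le_sup (Finset.mem_univ a)).trans (le_max_right _ _))
  have h1 := S.tendsto_act (f := fun _ _ => 1) (F := fun _ => 1)
    (π := fun j => Fin.cons (g j) fun a => p a j) (P := Fin.cons f π)
    (fun _ => continuous_const) (C := 1) (fun _ _ => by simp) (fun _ => tendsto_const_nhds) (L := L')
    (fun j a => Fin.cases ((hgL j).weaken (le_max_left _ _)) (hpL' j) a)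
    fun a y => Fin.cases (hg.tendsto_at y) (fun a => (hp a).tendsto_at y) a
  obtain ⟨B, hB⟩ := (hg.tendsto_at (c.φ 0 0)).abs.bddAbove_range
  have h2 := c.tendsto_act (f := g) (F := f) (π := fun j a => p a j) (P := π)
    (fun j => (hgL j).continuous) (C := B + Lf * Metric.diam (univ : Set X)) (fun j y => by
      have h3 := (hgL j).dist_le_mul y (c.φ 0 0)
      have h4 := Metric.dist_le_diam_of_mem isCompact_univ.isBounded (mem_univ y)
        (mem_univ (c.φ 0 0))
      have h5 : |g j (c.φ 0 0)| ≤ B := hB (mem_range_self j)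
      have h6 := mul_le_mul_of_nonneg_left h4 Lf.coe_nonneg
      rw [Real.dist_eq] at h3
      linarith [abs_sub_abs_le_abs_sub (g j y) (g j (c.φ 0 0))])
    hg.tendsto_at hpL' fun a => (hp a).tendsto_at
  refine tendsto_nhds_unique h1 (h2.congr fun j => (h _ (hgD j) _ fun a => hpD a j).symm)

end Crest.Agent.R241
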