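import Crest.Agent.R241.Slice.Fam

/-!
# Block S, part 5: the slices and the coarea identity.
-/

open MeasureTheory Set Filter Topology
open Crest.GeometryTopology.MetricCurrent
open Crest.GeometryTopology.Submanifold (Euc unitBallVol unitSphereArea)
open scoped ENNReal NNReal InnerProductSpace

noncomputable section

namespace Crest.Agent.R241

universe u

variable {X : Type u} [MetricSpace X] {k : ℕ} {c : Ch X (k + 1)} {u : X → ℝ} {ε : ℝ}
  {Q : ℕ × ℕ → Set (Euc (k + 1))} {ψ : ℕ × ℕ → Euc (k + 1) → X} {s : ℕ × ℕ → ℝ}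

/-- total area of the slice at height `t` -/
def slB (Q : ℕ × ℕ → Set (Euc (k + 1))) (t : ℝ) : ℝ≥0∞ := ∑' j, volume (slSec (Q j) t)

/-- the action of the slice at height `t` -/
def slAct (Q : ℕ × ℕ → Set (Euc (k + 1))) (ψ : ℕ × ℕ → Euc (k + 1) → X) (s : ℕ × ℕ → ℝ)
    (f : X → ℝ) (π : Fin k → X → ℝ) (t : ℝ) : ℝ :=
  ∑' j, s j * ∫ y in slSec (Q j) t, f (ψ j (slCns t y))
    * jacOn (slSec (Q j) t) (fun y => ψ j (slCns t y)) π y

theorem SlFam.measurable_slB (h : SlFam c u ε Q ψ s) : Measurable (slB Q) :=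
  Measurable.tsum fun j => measurable_volume_slSec (h.meas j)

theorem SlFam.lintegral_slB (h : SlFam c u ε Q ψ s) {A : Set ℝ} (hA : MeasurableSet A) :
    ∫⁻ t in A, slB Q t
      ≤ ENNReal.ofReal (1 + ε) * ∫⁻ w in {w | u (c.pt w) ∈ A}, ‖c.grad u w‖ₑ ∂c.par := by
  unfold slB
  rw [lintegral_tsum fun j => (measurable_volume_slSec (h.meas j)).aemeasurable]
  simp only [lintegral_volume_slSec (h.meas _) hA]
  exact h.vol A hA

theorem SlFam.lintegral_slB_ne_top (h : SlFam c u ε Q ψ s) (hu : Lip u) :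
    ∫⁻ t, slB Q t ≠ ⊤ := by
  have h1 := h.lintegral_slB MeasurableSet.univ
  rw [Measure.restrict_univ] at h1
  exact ne_top_of_le_ne_top (ENNReal.mul_ne_top ENNReal.ofReal_ne_top
    ((setLIntegral_le_lintegral _ _).trans_lt (c.integrable_grad hu).2).ne) h1

theorem SlFam.lip_sec (h : SlFam c u ε Q ψ s) (j : ℕ × ℕ) (t : ℝ) :
    LipschitzOnWith 1 (fun y => ψ j (slCns t y)) (slSec (Q j) t) := by
  refine LipschitzOnWith.of_dist_le_mul fun y hy y' hy' => ?_
  simpa [dist_slCns] using h.lip1 j _ hy _ hy' rfl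

theorem SlFam.exists_ch (h : SlFam c u ε Q ψ s) {t : ℝ} (ht : slB Q t ≠ ⊤) :
    ∃ sl : Ch X k, (∀ f π, IsTestPair f π → sl.act f π = slAct Q ψ s f π t) ∧
      ENNReal.ofReal sl.area ≤ slB Q t ∧ sl.In {y | u y = t} := by
  have : Nonempty X := ⟨c.φ 0 0⟩
  obtain ⟨sl, h1, h2, h3, -⟩ := exists_ch_of_family (fun j => slSec (Q j) t)
    (fun j y => ψ j (slCns t y)) s (fun j => measurableSet_slSec (h.meas j) t)
    (fun j => h.lip_sec j t) h.hs ht
  exact ⟨sl, fun f π hf => (h2 f π hf).tsum_eq.symm, h1 ▸ ENNReal.ofReal_toReal_le,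
    h3 _ fun j y hy => h.lev j _ hy⟩

/-- the coarea identity -/
theorem SlFam.coarea (h : SlFam c u ε Q ψ s) (hu : Lip u) {f : X → ℝ} {π : Fin k → X → ℝ}
    (hf : IsTestPair f π) :
    Integrable (slAct Q ψ s f π) ∧ ∫ t, slAct Q ψ s f π t = c.act f (Fin.cons u π) := by
  have hf' := sl_isTestPair_cons hu hf
  set F : ℕ × ℕ → ℝ → ℝ := fun j t => s j * ∫ y in slSec (Q j) t, f (ψ j (slCns t y))
    * jacOn (slSec (Q j) t) (fun y => ψ j (slCns t y)) π y with hF
  have hfin := h.lintegral_slB_ne_top hu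
  have hQ : ∀ j, volume (Q j) ≠ ⊤ := fun j => by
    have h1 := lintegral_volume_slSec (h.meas j) MeasurableSet.univ
    simp only [Measure.restrict_univ, mem_univ, ofPred_true, inter_univ] at h1
    rw [← h1]
    exact ne_top_of_le_ne_top hfin (lintegral_mono fun t => ENNReal.le_tsum j)
  have h1 : ∀ j, Integrable (F j) ∧ ∫ t, F j t
      = s j * ∫ w in Q j, f (ψ j w) * jacOn (Q j) (ψ j) (Fin.cons u π) w := fun j => by
    obtain ⟨K, hK⟩ := h.lip j
    obtain ⟨h2, h3⟩ := sl_fubini (h.meas j) (sl_integrableOn hf' (h.meas j) (hQ j) hK)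
    choose L hL using hf'.2.2
    have h4 := sl_section (h.meas j)
      (g := fun a w => (Fin.cons u π : Fin (k + 1) → X → ℝ) a (ψ j w))
      (fun a => (hL a).comp_lipschitzOnWith hK) (h.lev j)
    have h5 : (fun t => s j * ∫ y in slSec (Q j) t, f (ψ j (slCns t y))
        * jacOn (Q j) (ψ j) (Fin.cons u π) (slCns t y)) =ᵐ[volume] F j := by
      filter_upwards [h4] with t ht
      simp only [hF]
      congr 1
      refine integral_congr_ae ?_
      filter_upwards [ht] with y hy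
      rw [jacOn_eq, hy]; rfl
    exact ⟨(h2.const_mul _).congr h5, by rw [← integral_congr_ae h5, integral_const_mul, h3]⟩
  obtain ⟨C, -, hC⟩ := sl_bound hf 1
  have h2 : ∀ j t, ‖F j t‖ₑ ≤ ENNReal.ofReal C * volume (slSec (Q j) t) := fun j t => by
    have hs : ‖s j‖ₑ = 1 := by rcases h.hs j with h | h <;> simp [h]
    simp only [hF]
    rw [enorm_mul, hs, one_mul, ← setLIntegral_const]
    refine (enorm_integral_le_lintegral_enorm _).trans (lintegral_mono_ae ?_)
    filter_upwards [hC _ _ (measurableSet_slSec (h.meas j) t) (h.lip_sec j t)] with y hy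
    rw [← ofReal_norm]
    exact ENNReal.ofReal_le_ofReal hy
  have h3 : ∫⁻ t, ∑' j, ‖F j t‖ₑ < ⊤ := by
    refine lt_of_le_of_lt (lintegral_mono fun t => ENNReal.tsum_le_tsum fun j => h2 j t) ?_
    simp only [ENNReal.tsum_mul_left]
    rw [lintegral_const_mul' _ _ ENNReal.ofReal_ne_top]
    exact ENNReal.mul_lt_top ENNReal.ofReal_lt_top hfin.lt_top
  refine ⟨⟨(AEMeasurable.tsum fun j => (h1 j).1.1.aemeasurable).aestronglyMeasurable,
    lt_of_le_of_lt (lintegral_mono fun t => enorm_tsum_le_tsum_enorm) h3⟩, ?_⟩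
  rw [lintegral_tsum fun j => (h1 j).1.1.enorm] at h3
  rw [← (h.act f π hf).tsum_eq]
  simp only [← (h1 _).2]
  exact integral_tsum (fun j => (h1 j).1.1) h3.ne

theorem SlFam.slAct_mul (h : SlFam c u ε Q ψ s) (γ : ℝ → ℝ) (f : X → ℝ) (π : Fin k → X → ℝ)
    (t : ℝ) : slAct Q ψ s (fun y => γ (u y) * f y) π t = γ t * slAct Q ψ s f π t := by
  unfold slAct
  rw [← tsum_mul_left]
  refine tsum_congr fun j => ?_
  rw [mul_left_comm, ← integral_const_mul (γ t)]
  congr 1
  refine setIntegral_congr_fun (measurableSet_slSec (h.meas j) t) fun y hy => ?_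
  simp only [h.lev j _ hy, slCns_zero, mul_assoc]

end Crest.Agent.R241
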