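import Crest.Agent.R241.Slice.Piece
import Crest.Agent.R241.Sum

/-!
# Block S, part 4: the family of adapted charts of a chain.
-/

open MeasureTheory Set Filter Topology
open Crest.GeometryTopology.MetricCurrent
open Crest.GeometryTopology.Submanifold (Euc unitBallVol unitSphereArea)
open scoped ENNReal NNReal InnerProductSpace

noncomputable section

namespace Crest.Agent.R241

universe u

variable {X : Type u} [MetricSpace X] {k : ℕ}

/-- charts `ψ j : Q j → X` with `u (ψ j w) = w 0` representing `c ⌞ du` -/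
structure SlFam (c : Ch X (k + 1)) (u : X → ℝ) (ε : ℝ) (Q : ℕ × ℕ → Set (Euc (k + 1)))
    (ψ : ℕ × ℕ → Euc (k + 1) → X) (s : ℕ × ℕ → ℝ) : Prop where
  meas : ∀ j, MeasurableSet (Q j)
  lip : ∀ j, ∃ K, LipschitzOnWith K (ψ j) (Q j)
  hs : ∀ j, s j = 1 ∨ s j = -1
  lev : ∀ j, ∀ w ∈ Q j, u (ψ j w) = w 0
  lip1 : ∀ j, ∀ w ∈ Q j, ∀ w' ∈ Q j, w 0 = w' 0 → dist (ψ j w) (ψ j w') ≤ dist w w'
  vol : ∀ A, MeasurableSet A → ∑' j, volume (Q j ∩ {w | w 0 ∈ A})
    ≤ ENNReal.ofReal (1 + ε) * ∫⁻ w in {w | u (c.pt w) ∈ A}, ‖c.grad u w‖ₑ ∂c.par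
  act : ∀ f (π : Fin k → X → ℝ), IsTestPair f π →
    HasSum (fun j => s j * ∫ w in Q j, f (ψ j w) * jacOn (Q j) (ψ j) (Fin.cons u π) w)
      (c.act f (Fin.cons u π))

theorem sl_bound {n : ℕ} {f : X → ℝ} {π : Fin n → X → ℝ} (hf : IsTestPair f π) (K : ℝ≥0) :
    ∃ C : ℝ, 0 ≤ C ∧ ∀ (E : Set (Euc n)) (φ : Euc n → X), MeasurableSet E → LipschitzOnWith K φ E →
      ∀ᵐ z ∂volume.restrict E, ‖f (φ z) * jacOn E φ π z‖ ≤ C := by
  obtain ⟨-, ⟨C, hC⟩, hπ⟩ := hf
  choose L hL using hπ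
  refine ⟨|C| * ∏ a, ((L a * K : ℝ≥0) : ℝ), by positivity, fun E φ hE hφ => ?_⟩
  filter_upwards [ae_abs_jacE_le hE (g := fun a w => π a (φ w))
    fun a => (hL a).comp_lipschitzOnWith hφ] with z hz
  rw [norm_mul]
  exact mul_le_mul ((hC _).trans (le_abs_self _)) hz (norm_nonneg _) (abs_nonneg _)

theorem sl_integrableOn {n : ℕ} {f : X → ℝ} {π : Fin n → X → ℝ} (hf : IsTestPair f π)
    {E : Set (Euc n)} (hE : MeasurableSet E) (hfin : volume E ≠ ⊤) {φ : Euc n → X} {K : ℝ≥0}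
    (hφ : LipschitzOnWith K φ E) : IntegrableOn (fun z => f (φ z) * jacOn E φ π z) E := by
  obtain ⟨C, -, hC⟩ := sl_bound hf K
  obtain ⟨⟨Kf, hKf⟩, -, hπ⟩ := hf
  choose L hL using hπ
  have : IsFiniteMeasure (volume.restrict E) := isFiniteMeasure_restrict.2 hfin
  refine Integrable.of_bound (AEMeasurable.aestronglyMeasurable (AEMeasurable.mul ?_ ?_)) C
    (hC E φ hE hφ)
  · exact (hKf.comp_lipschitzOnWith hφ).continuousOn.aemeasurable hE
  · exact aemeasurable_jacE hE (g := fun a w => π a (φ w)) fun a => (hL a).comp_lipschitzOnWith hφ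

theorem sl_isTestPair_cons {u f : X → ℝ} {π : Fin k → X → ℝ} (hu : Lip u) (hf : IsTestPair f π) :
    IsTestPair f (Fin.cons u π : Fin (k + 1) → X → ℝ) :=
  ⟨hf.1, hf.2.1, fun a => Fin.cases hu hf.2.2 a⟩

theorem sl_jacE_mono {n : ℕ} {E E' : Set (Euc n)} (hE : MeasurableSet E) (hE' : MeasurableSet E')
    (hsub : E' ⊆ E) {g : Fin n → Euc n → ℝ} {L : Fin n → ℝ≥0}
    (hg : ∀ a, LipschitzOnWith (L a) (g a) E) :
    ∀ᵐ z ∂volume.restrict E', jacE E' g z = jacE E g z := by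
  filter_upwards [ae_all_iff.2 fun a => ae_fderivWithin_mono hE hE' hsub (hg a)] with z hz
  simp only [jacE, hz]

theorem sl_exists_pow (k : ℕ) {ε : ℝ} (hε : 0 < ε) : ∃ ε' > (0 : ℝ), (1 + ε') ^ k ≤ 1 + ε := by
  have h1 : Tendsto (fun x : ℝ => (1 + x) ^ k) (𝓝 0) (𝓝 ((1 + 0) ^ k)) :=
    (by fun_prop : Continuous fun x : ℝ => (1 + x) ^ k).tendsto 0
  have h2 : ∀ᶠ x in 𝓝[>] (0 : ℝ), (1 + x) ^ k < 1 + ε :=
    nhdsWithin_le_nhds (h1.eventually (gt_mem_nhds (by simpa using hε)))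
  obtain ⟨x, hx, hx'⟩ := (h2.and self_mem_nhdsWithin).exists
  exact ⟨x, hx', hx.le⟩

theorem exists_slFam [MeasurableSpace X] [BorelSpace X] (c : Ch X (k + 1)) {u : X → ℝ} (hu : Lip u)
    {ε : ℝ} (hε : 0 < ε) : ∃ Q ψ s, SlFam c u ε Q ψ s := by
  obtain ⟨ε', hε', hpow⟩ := sl_exists_pow k hε
  obtain ⟨L, hL⟩ := id hu
  have hv : ∀ i, LipschitzOnWith (L * 1) (fun z => u (c.φ i z)) (c.E i) := fun i =>
    hL.comp_lipschitzOnWith (c.lip i)
  choose P T K s hP hPE hd hT hs hineq hdet hcov using fun i => sl_pieces (c.meas i) (hv i) hε'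
  choose Q Ψ hQ using fun j : ℕ × ℕ => sl_chart (hP j.1 j.2) ((hv j.1).mono (hPE j.1 j.2))
    (hs j.1 j.2) (hineq j.1 j.2) (hdet j.1 j.2)
  have hmaps : ∀ j, MapsTo (Ψ j) (Q j) (c.E j.1) := fun j => (hQ j).maps.mono_right (hPE j.1 j.2)
  refine ⟨Q, fun j w => c.φ j.1 (Ψ j w), fun j => c.sg j.1 * s j.1 j.2, fun j => (hQ j).meas,
    fun j => ?_, fun j => ?_, fun j => (hQ j).lev, fun j w hw w' hw' h0 => ?_, fun A hA => ?_,
    fun f π hf => ?_⟩
  · obtain ⟨K', hK'⟩ := (hQ j).lip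
    exact ⟨_, (c.lip j.1).comp hK' (hmaps j)⟩
  · rcases c.hsg j.1 with h | h <;> rcases hs j.1 j.2 with h' | h' <;> simp [h, h']
  · refine le_trans ?_ ((hQ j).lip1 w hw w' hw' h0)
    simpa using (c.lip j.1).dist_le_mul _ (hmaps j hw) _ (hmaps j hw')
  · have hA' : MeasurableSet (u ⁻¹' A) := hu.continuous.measurable hA
    have h1 := c.par_restr hA'
    rw [show {w | u (c.pt w) ∈ A} = c.pt ⁻¹' (u ⁻¹' A) from rfl, ← h1, Ch.lintegral_par,
      ← ENNReal.tsum_mul_left, ENNReal.tsum_prod']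
    refine ENNReal.tsum_le_tsum fun i => ?_
    have hM := (c.restr _ hA').meas i
    set M := (c.restr _ hA').E i with hMd
    have hPM : ∀ l, P i l ∩ (fun z => u (c.φ i z)) ⁻¹' A = M ∩ P i l := fun l => by
      ext z
      exact ⟨fun h => ⟨⟨hPE i l h.1, h.2⟩, h.1⟩, fun h => ⟨h.2, h.1.2⟩⟩
    calc ∑' l, volume (Q (i, l) ∩ {w | w 0 ∈ A})
        ≤ ∑' l, ENNReal.ofReal (1 + ε) * ∫⁻ z in M ∩ P i l, ‖c.grad u (i, z)‖ₑ := by
          refine ENNReal.tsum_le_tsum fun l => ((hQ (i, l)).vol A hA).trans (mul_le_mul' ?_ ?_)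
          · exact ENNReal.ofReal_le_ofReal
              ((pow_le_pow_left₀ (norm_nonneg _) (hT i l) k).trans hpow)
          · rw [hPM l]
            refine (lintegral_congr_ae ?_).le
            filter_upwards [ae_restrict_of_ae_restrict_of_subset inter_subset_right
              (ae_fderivWithin_mono (c.meas i) (hP i l) (hPE i l) (hv i))] with z hz
            rw [hz, ← ofReal_norm, ← ofReal_norm, c.norm_grad]
      _ ≤ _ := by
          rw [ENNReal.tsum_mul_left, ← lintegral_iUnion (fun l => hM.inter (hP i l))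
            fun l l' hl => (hd i hl).mono inter_subset_right inter_subset_right]
          exact mul_le_mul' le_rfl (lintegral_mono_set (iUnion_subset fun l => inter_subset_left))
  · have hf' := sl_isTestPair_cons hu hf
    set H : ℕ → Euc (k + 1) → ℝ := fun i z =>
      f (c.φ i z) * jacOn (c.E i) (c.φ i) (Fin.cons u π) z with hH
    obtain ⟨C, hC0, hC⟩ := sl_bound hf' 1
    choose Lπ hLπ using hf'.2.2
    have hg : ∀ i a, LipschitzOnWith (Lπ a * 1)
        (fun w => (Fin.cons u π : Fin (k + 1) → X → ℝ) a (c.φ i w)) (c.E i) := fun i a =>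
      (hLπ a).comp_lipschitzOnWith (c.lip i)
    have hterm : ∀ j : ℕ × ℕ, c.sg j.1 * s j.1 j.2 * ∫ w in Q j, f (c.φ j.1 (Ψ j w))
        * jacOn (Q j) (fun w => c.φ j.1 (Ψ j w)) (Fin.cons u π) w
        = c.sg j.1 * ∫ z in P j.1 j.2, H j.1 z := fun j => by
      have h1 := (hQ j).act (fun z => f (c.φ j.1 z)) _ _ fun a => (hg j.1 a).mono (hPE j.1 j.2)
      rw [mul_assoc, jacOn_eq, ← h1]
      congr 1
      refine integral_congr_ae ?_
      filter_upwards [sl_jacE_mono (c.meas j.1) (hP j.1 j.2) (hPE j.1 j.2) (hg j.1)] with z hz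
      rw [hz]; rfl
    simp only [hterm]
    have hEfin : ∀ i, volume (c.E i) ≠ ⊤ := fun i => ne_top_of_le_ne_top c.fin (ENNReal.le_tsum i)
    have hint : ∀ i, IntegrableOn (H i) (c.E i) := fun i =>
      sl_integrableOn hf' (c.meas i) (hEfin i) (c.lip i)
    have hfib : ∀ i, HasSum (fun l => c.sg i * ∫ z in P i l, H i z)
        (c.sg i * ∫ z in c.E i, H i z) := fun i => by
      have h1 := hasSum_integral_iUnion (hP i) (hd i)
        ((hint i).mono_set (iUnion_subset (hPE i)))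
      rw [setIntegral_eq_of_subset_of_ae_sdiff_eq_zero (c.meas i).nullMeasurableSet
        (iUnion_subset (hPE i))]
      · exact h1.mul_left _
      · filter_upwards [(ae_restrict_iff' (c.meas i)).1 (hcov i)] with z hz hz'
        have h0 : fderivWithin ℝ (fun z => u (c.φ i z)) (c.E i) z = 0 :=
          by_contra fun h => hz'.2 (hz hz'.1 h)
        simp only [hH, jacOn]
        rw [Matrix.det_eq_zero_of_row_eq_zero 0 fun j => by simp [h0], mul_zero]
    have hsum : Summable fun j : ℕ × ℕ => c.sg j.1 * ∫ z in P j.1 j.2, H j.1 z := by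
      have h1 : ∑' j : ℕ × ℕ, volume (P j.1 j.2) ≠ ⊤ := by
        refine ne_top_of_le_ne_top c.fin ?_
        rw [ENNReal.tsum_prod']
        refine ENNReal.tsum_le_tsum fun i => ?_
        rw [← measure_iUnion (hd i) (hP i)]
        exact measure_mono (iUnion_subset (hPE i))
      refine Summable.of_norm_bounded ((ENNReal.summable_toReal h1).mul_left C) fun j => ?_
      rw [norm_mul, Real.norm_eq_abs, c.abs_sg, one_mul]
      exact norm_setIntegral_le_of_norm_le_const_ae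
        ((measure_mono (hPE j.1 j.2)).trans_lt (hEfin j.1).lt_top)
        (ae_restrict_of_ae_restrict_of_subset (hPE j.1 j.2) (hC _ _ (c.meas j.1) (c.lip j.1)))
    rw [← (hsum.hasSum.prod_fiberwise hfib).unique (c.hasSum_act hf')]
    exact hsum.hasSum

end Crest.Agent.R241
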